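import Vale.Agent.P247.H324.MG.Def

/-!
# P247 (helper462), package PUI-A: the chain rule of a multigraph as a weak derivative
-/

open MeasureTheory Set Metric Filter Topology
open scoped ContDiff ENNReal

noncomputable section

namespace Vale.Agent.P247.H462

open Vale.Agent.P272.CT
open Vale.Agent.P247.H324
open Vale.Agent.P247.H574 (PD MG dC dbC)

variable {N : ℕ} {m A : ℂ × ℂ → ℂ} {ρ : ℝ} {Y P : ℂ → Fin N → ℂ}

theorem isOpen_PD (r : ℝ) : IsOpen (PD r) := isOpen_ball.prod isOpen_ball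

theorem mem_PD {z y : ℂ} (hz : z ∈ ball (0 : ℂ) 1) (hy : ‖y‖ < 1) : (z, y) ∈ PD 2 := by
  refine ⟨ball_subset_ball (by norm_num) hz, ?_⟩
  rw [mem_ball_zero_iff]
  show ‖y‖ < 2
  linarith

/-- measurability of the coefficients along the sheets -/
theorem meas_coef {G : ℂ × ℂ → ℂ} (hG : ContinuousOn G (PD 2)) {y : ℂ → ℂ} (hy : Measurable y)
    (hb : ∀ z, ‖y z‖ < 1) :
    AEStronglyMeasurable (fun z => G (z, y z)) (volume.restrict (ball (0 : ℂ) 1)) := by
  classical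
  have h1 : Measurable ((PD 2).piecewise G 0) :=
    hG.measurable_piecewise continuousOn_const (isOpen_PD 2).measurableSet
  have h2 : Measurable fun z => (PD 2).piecewise G 0 (z, y z) :=
    h1.comp (measurable_id.prodMk hy)
  refine h2.aestronglyMeasurable.congr ?_
  filter_upwards [ae_restrict_mem measurableSet_ball] with z hz
  exact piecewise_eq_of_mem _ _ _ (mem_PD hz (hb z))

theorem bdd_coef {G : ℂ × ℂ → ℂ} (hG : ContinuousOn G (PD 2)) :
    ∃ a : ℝ, 0 ≤ a ∧ ∀ z ∈ ball (0 : ℂ) 1, ∀ y : ℂ, ‖y‖ < 1 → ‖G (z, y)‖ ≤ a := by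
  have h1 : IsCompact (closedBall (0 : ℂ) 1 ×ˢ closedBall (0 : ℂ) 1) :=
    (isCompact_closedBall _ _).prod (isCompact_closedBall _ _)
  have h2 : closedBall (0 : ℂ) 1 ×ˢ closedBall (0 : ℂ) 1 ⊆ PD 2 :=
    prod_mono (closedBall_subset_ball (by norm_num)) (closedBall_subset_ball (by norm_num))
  obtain ⟨a, ha⟩ := h1.exists_bound_of_continuousOn (hG.mono h2)
  refine ⟨max a 0, le_max_right _ _, fun z hz y hy => ?_⟩
  refine (ha (z, y) ⟨ball_subset_closedBall hz, ?_⟩).trans (le_max_left _ _)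
  rw [mem_closedBall_zero_iff]
  exact hy.le

/-- the `∂̄` derivative of the sheets -/
def QQ (m A : ℂ × ℂ → ℂ) (Y P : ℂ → Fin N → ℂ) (z : ℂ) (i : Fin N) : ℂ :=
  m (z, Y z i) * P z i + A (z, Y z i)

theorem int_P (h : MG N m A ρ Y P) (i : Fin N) : IntegrableOn (fun z => P z i) (ball 0 1) := by
  have h1 : IntegrableOn (fun z : ℂ => (1 : ℝ) + ∑ i, ‖P z i‖ ^ 2) (ball 0 1) :=
    (integrableOn_const measure_ball_lt_top.ne).add h.energy
  refine h1.mono' (h.measP i).aestronglyMeasurable (Eventually.of_forall fun z => ?_)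
  have h2 : ‖P z i‖ ^ 2 ≤ ∑ i, ‖P z i‖ ^ 2 :=
    Finset.single_le_sum (f := fun i => ‖P z i‖ ^ 2) (fun _ _ => by positivity)
      (Finset.mem_univ i)
  nlinarith [sq_nonneg (‖P z i‖ - 1)]

theorem int_Q (hm : ContinuousOn m (PD 2)) (hA : ContinuousOn A (PD 2)) (hρ : ρ < 1)
    (h : MG N m A ρ Y P) (i : Fin N) :
    IntegrableOn (fun z => QQ m A Y P z i) (ball 0 1) := by
  have hb : ∀ z, ‖Y z i‖ < 1 := fun z => (h.bdd z i).trans_lt hρ
  obtain ⟨a, ha0, ha⟩ := bdd_coef hm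
  obtain ⟨b, hb0, hb'⟩ := bdd_coef hA
  have h1 : IntegrableOn (fun z => m (z, Y z i) * P z i) (ball 0 1) := by
    refine (int_P h i).bdd_mul (c := a) (meas_coef hm (h.measY i) hb) ?_
    filter_upwards [ae_restrict_mem measurableSet_ball] with z hz
    exact ha z hz _ (hb z)
  have h2 : IntegrableOn (fun z => A (z, Y z i)) (ball 0 1) := by
    haveI : IsFiniteMeasure (volume.restrict (ball (0 : ℂ) 1)) := ⟨by
      rw [Measure.restrict_apply_univ]; exact measure_ball_lt_top⟩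
    refine Integrable.of_bound (meas_coef hA (h.measY i) hb) b ?_
    filter_upwards [ae_restrict_mem measurableSet_ball] with z hz
    exact hb' z hz _ (hb z)
  exact h1.add h2

theorem dPQ_apply (P Q v : ℂ) : dPQ P Q v = P * v + Q * (starRingEnd ℂ) v := by
  simp [dPQ]

/-- derivative of a product test function -/
theorem fderiv_test {φ : ℂ → ℝ} {G : ℂ → ℂ} {z y : ℂ} (hφ : DifferentiableAt ℝ φ z)
    (hG : DifferentiableAt ℝ G y) (a b : ℂ) :
    fderiv ℝ (fun p : ℂ × ℂ => (φ p.1 : ℂ) * G p.2) (z, y) (a, b)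
      = (fderiv ℝ φ z a : ℂ) * G y + φ z * fderiv ℝ G y b := by
  have h1 : HasFDerivAt (fun p : ℂ × ℂ => (φ p.1 : ℂ))
      (Complex.ofRealCLM.comp ((fderiv ℝ φ z).comp (ContinuousLinearMap.fst ℝ ℂ ℂ))) (z, y) := by
    have h3 : HasFDerivAt (fun p : ℂ × ℂ => φ p.1)
        ((fderiv ℝ φ z).comp (ContinuousLinearMap.fst ℝ ℂ ℂ)) (z, y) :=
      HasFDerivAt.comp (f := fun p : ℂ × ℂ => p.1) (z, y) hφ.hasFDerivAt hasFDerivAt_fst
    exact HasFDerivAt.comp (z, y) Complex.ofRealCLM.hasFDerivAt h3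
  have h2 : HasFDerivAt (fun p : ℂ × ℂ => G p.2)
      ((fderiv ℝ G y).comp (ContinuousLinearMap.snd ℝ ℂ ℂ)) (z, y) :=
    HasFDerivAt.comp (f := fun p : ℂ × ℂ => p.2) (z, y) hG.hasFDerivAt hasFDerivAt_snd
  have h3 := (h1.mul h2).fderiv
  have h4 : (fun p : ℂ × ℂ => (φ p.1 : ℂ) * G p.2)
      = (fun p : ℂ × ℂ => (φ p.1 : ℂ)) * fun p => G p.2 := rfl
  rw [h4, h3]
  simp only [ContinuousLinearMap.add_apply, ContinuousLinearMap.smul_apply,
    ContinuousLinearMap.comp_apply, ContinuousLinearMap.coe_fst', ContinuousLinearMap.coe_snd',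
    Complex.ofRealCLM_apply, smul_eq_mul]
  ring

/-- cutoff in the vertical variable -/
def chv : ContDiffBump (0 : ℂ) := ⟨1, 2, by norm_num, by norm_num⟩

def cutF (F : ℂ → ℂ) (y : ℂ) : ℂ := (chv y : ℂ) * F y

theorem cutF_contDiff {F : ℂ → ℂ} (hF : ContDiff ℝ ∞ F) : ContDiff ℝ ∞ (cutF F) :=
  (Complex.ofRealCLM.contDiff.comp chv.contDiff).mul hF

theorem cutF_compact (F : ℂ → ℂ) : HasCompactSupport (cutF F) := by
  refine HasCompactSupport.of_support_subset_isCompact (isCompact_closedBall (0 : ℂ) 2) ?_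
  intro y hy
  by_contra h
  rw [mem_closedBall_zero_iff, not_le] at h
  apply hy
  have h1 : chv y = 0 := chv.zero_of_le_dist (by rw [dist_zero_right]; exact h.le)
  simp [cutF, h1]

theorem cutF_eq {F : ℂ → ℂ} {y : ℂ} (hy : ‖y‖ < 1) : cutF F =ᶠ[𝓝 y] F := by
  have h1 : ball (0 : ℂ) 1 ∈ 𝓝 y := isOpen_ball.mem_nhds (mem_ball_zero_iff.2 hy)
  filter_upwards [h1] with w hw
  have h2 : chv w = 1 := chv.one_of_mem_closedBall (ball_subset_closedBall hw)
  simp [cutF, h2]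

theorem real_split {φ : ℂ → ℝ} (z v : ℂ) :
    ((fderiv ℝ φ z v : ℝ) : ℂ) = v * (((fderiv ℝ φ z 1 : ℝ) : ℂ) - Complex.I * (fderiv ℝ φ z Complex.I : ℝ)) / 2
      + (starRingEnd ℂ) v * (((fderiv ℝ φ z 1 : ℝ) : ℂ) + Complex.I * (fderiv ℝ φ z Complex.I : ℝ)) / 2 := by
  have h1 : fderiv ℝ φ z v = v.re * fderiv ℝ φ z 1 + v.im * fderiv ℝ φ z Complex.I := by
    conv_lhs => rw [← Complex.re_add_im v]
    have e1 : (v.re : ℂ) + v.im * Complex.I = v.re • (1 : ℂ) + v.im • Complex.I := by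
      simp
    rw [e1, map_add, map_smul, map_smul]
    simp only [smul_eq_mul]
  rw [h1]
  apply Complex.ext <;> simp <;> ring


theorem int_sum {G : Type*} [NormedAddCommGroup G] {s : Set ℂ} {u : Fin N → ℂ → G}
    (h : ∀ i, IntegrableOn (u i) s) : IntegrableOn (fun z => ∑ i, u i z) s :=
  integrable_finsetSum _ fun i _ => h i

theorem bdd_ball {E : Type*} [NormedAddCommGroup E] {F : ℂ → E} (hF : Continuous F) :
    ∃ B, ∀ y : ℂ, ‖y‖ < 1 → ‖F y‖ ≤ B := by
  obtain ⟨B, hB⟩ := (isCompact_closedBall (0 : ℂ) 1).exists_bound_of_continuousOn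
    (f := F) hF.continuousOn
  exact ⟨B, fun y hy => hB y (by rw [mem_closedBall_zero_iff]; exact hy.le)⟩

theorem int_F (hρ : ρ < 1) (h : MG N m A ρ Y P) {F : ℂ → ℂ} (hF : Continuous F) (i : Fin N) :
    IntegrableOn (fun z => F (Y z i)) (ball 0 1) := by
  obtain ⟨B, hB⟩ := bdd_ball hF
  exact Measure.integrableOn_of_bounded (M := B) measure_ball_lt_top.ne
      (hF.measurable.comp (h.measY i)).aestronglyMeasurable
      (Eventually.of_forall fun z => hB _ ((h.bdd z i).trans_lt hρ))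

theorem int_D (hm : ContinuousOn m (PD 2)) (hA : ContinuousOn A (PD 2)) (hρ : ρ < 1)
    (h : MG N m A ρ Y P) (i : Fin N) :
    IntegrableOn (fun z => dPQ (P z i) (QQ m A Y P z i)) (ball 0 1) := by
  have h1 : IntegrableOn (fun z => P z i • ContinuousLinearMap.id ℝ ℂ) (ball 0 1) :=
    (int_P h i).smul_const _
  have h2 : IntegrableOn (fun z => QQ m A Y P z i • (Complex.conjCLE : ℂ →L[ℝ] ℂ))
    (ball 0 1) := (int_Q hm hA hρ h i).smul_const _
  exact int_add h1 h2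

theorem int_FD (hm : ContinuousOn m (PD 2)) (hA : ContinuousOn A (PD 2)) (hρ : ρ < 1)
    (h : MG N m A ρ Y P) {F : ℂ → ℂ} (hF : ContDiff ℝ ∞ F) (i : Fin N) :
    IntegrableOn (fun z => (fderiv ℝ F (Y z i)).comp (dPQ (P z i) (QQ m A Y P z i)))
      (ball 0 1) := by
  have hF1 : Continuous (fderiv ℝ F) := hF.continuous_fderiv (by simp)
  obtain ⟨B', hB'⟩ := bdd_ball hF1
  have iD := int_D hm hA hρ h i
  refine Integrable.mono' ((Integrable.norm iD).const_mul B') ?_ (Eventually.of_forall fun z => ?_)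
  · have h1 : AEStronglyMeasurable (fun z => fderiv ℝ F (Y z i))
        (volume.restrict (ball (0 : ℂ) 1)) :=
      (hF1.measurable.comp (h.measY i)).aestronglyMeasurable
    have h2 : Continuous fun p : (ℂ →L[ℝ] ℂ) × (ℂ →L[ℝ] ℂ) => p.1.comp p.2 :=
      continuous_fst.clm_comp continuous_snd
    exact h2.comp_aestronglyMeasurable (h1.prodMk iD.aestronglyMeasurable)
  · refine (ContinuousLinearMap.opNorm_comp_le _ _).trans ?_
    gcongr
    exact hB' _ ((h.bdd z i).trans_lt hρ)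

section test

variable {φ : ℂ → ℝ} {F : ℂ → ℂ}

/-- the test function -/
def tf (φ : ℂ → ℝ) (F : ℂ → ℂ) (p : ℂ × ℂ) : ℂ := (φ p.1 : ℂ) * cutF F p.2

theorem tf_smooth (hφ : ContDiff ℝ ∞ φ) (hF : ContDiff ℝ ∞ F) : ContDiff ℝ ∞ (tf φ F) :=
  ((Complex.ofRealCLM.contDiff.comp hφ).comp contDiff_fst).mul
    ((cutF_contDiff hF).comp contDiff_snd)

theorem tf_tsupport : tsupport (tf φ F) ⊆ tsupport φ ×ˢ tsupport (cutF F) := by
  refine closure_minimal ?_ ((isClosed_tsupport φ).prod (isClosed_tsupport _))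
  intro p hp
  constructor
  · by_contra h1
    apply hp
    simp [tf, image_eq_zero_of_notMem_tsupport h1]
  · by_contra h1
    apply hp
    simp [tf, image_eq_zero_of_notMem_tsupport h1]

theorem tf_compact (hφc : HasCompactSupport φ) : HasCompactSupport (tf φ F) :=
  (IsCompact.prod hφc (cutF_compact F)).of_isClosed_subset (isClosed_tsupport _) tf_tsupport

theorem tf_fd (hφ : ContDiff ℝ ∞ φ) (hF : ContDiff ℝ ∞ F) (z y a b : ℂ) :
    fderiv ℝ (tf φ F) (z, y) (a, b)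
      = (fderiv ℝ φ z a : ℂ) * cutF F y + φ z * fderiv ℝ (cutF F) y b :=
  fderiv_test ((hφ.differentiable (by simp)) z) (((cutF_contDiff hF).differentiable (by simp)) y) a b

theorem tf_d1 (hφ : ContDiff ℝ ∞ φ) (hF : ContDiff ℝ ∞ F) (z y : ℂ) : dC (tf φ F) (z, y) (1, 0)
      = (((fderiv ℝ φ z 1 : ℝ) : ℂ) - Complex.I * (fderiv ℝ φ z Complex.I : ℝ)) / 2 *
        cutF F y := by
  have e : (Complex.I • ((1, 0) : ℂ × ℂ)) = (Complex.I, 0) := by simp
  simp only [dC, e, tf_fd hφ hF, map_zero]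
  ring

theorem tf_d2 (hφ : ContDiff ℝ ∞ φ) (hF : ContDiff ℝ ∞ F) (z y : ℂ) : dbC (tf φ F) (z, y) (1, 0)
      = (((fderiv ℝ φ z 1 : ℝ) : ℂ) + Complex.I * (fderiv ℝ φ z Complex.I : ℝ)) / 2 *
        cutF F y := by
  have e : (Complex.I • ((1, 0) : ℂ × ℂ)) = (Complex.I, 0) := by simp
  simp only [dbC, e, tf_fd hφ hF, map_zero]
  ring

theorem tf_d3 (hφ : ContDiff ℝ ∞ φ) (hF : ContDiff ℝ ∞ F) (z y : ℂ) : dC (tf φ F) (z, y) (0, 1)
      = φ z * pz (fderiv ℝ (cutF F) y) := by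
  have e : (Complex.I • ((0, 1) : ℂ × ℂ)) = (0, Complex.I) := by simp
  simp only [dC, e, tf_fd hφ hF, map_zero, pz, smul_eq_mul, Complex.ofReal_zero]
  ring

theorem tf_d4 (hφ : ContDiff ℝ ∞ φ) (hF : ContDiff ℝ ∞ F) (z y : ℂ) : dbC (tf φ F) (z, y) (0, 1)
      = φ z * pzb (fderiv ℝ (cutF F) y) := by
  have e : (Complex.I • ((0, 1) : ℂ × ℂ)) = (0, Complex.I) := by simp
  simp only [dbC, e, tf_fd hφ hF, map_zero, pzb, smul_eq_mul, Complex.ofReal_zero]
  ring

theorem bdd_dC {f : ℂ × ℂ → ℂ} (hf : ContDiff ℝ ∞ f) (hc : HasCompactSupport f) (w : ℂ × ℂ) :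
    Continuous (fun p => dC f p w) ∧ ∃ C, ∀ p, ‖dC f p w‖ ≤ C := by
  have hfd : Continuous (fderiv ℝ f) := hf.continuous_fderiv (by simp)
  have h1 : Continuous fun p => dC f p w :=
    ((hfd.clm_apply continuous_const).sub
      (continuous_const.mul (hfd.clm_apply continuous_const))).div_const 2
  have hfz : ∀ p ∉ tsupport f, fderiv ℝ f p = 0 := fun p hp => by
    by_contra h1
    exact hp (tsupport_fderiv_subset ℝ (subset_tsupport _ h1))
  exact ⟨h1, h1.bounded_above_of_compact_support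
      (HasCompactSupport.intro hc fun p hp => by simp [dC, hfz p hp])⟩

theorem bdd_dbC {f : ℂ × ℂ → ℂ} (hf : ContDiff ℝ ∞ f) (hc : HasCompactSupport f) (w : ℂ × ℂ) :
    Continuous (fun p => dbC f p w) ∧ ∃ C, ∀ p, ‖dbC f p w‖ ≤ C := by
  have hfd : Continuous (fderiv ℝ f) := hf.continuous_fderiv (by simp)
  have h1 : Continuous fun p => dbC f p w :=
    ((hfd.clm_apply continuous_const).add
      (continuous_const.mul (hfd.clm_apply continuous_const))).div_const 2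
  have hfz : ∀ p ∉ tsupport f, fderiv ℝ f p = 0 := fun p hp => by
    by_contra h1
    exact hp (tsupport_fderiv_subset ℝ (subset_tsupport _ h1))
  exact ⟨h1, h1.bounded_above_of_compact_support
      (HasCompactSupport.intro hc fun p hp => by simp [dbC, hfz p hp])⟩

theorem bmul (h : MG N m A ρ Y P) {k : ℂ × ℂ → ℂ} (hk : Continuous k ∧ ∃ C, ∀ p, ‖k p‖ ≤ C)
    (i : Fin N) {u : ℂ → ℂ} (hu : IntegrableOn u (ball 0 1)) :
    IntegrableOn (fun z => k (z, Y z i) * u z) (ball 0 1) := by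
  obtain ⟨hk, C, hC⟩ := hk
  exact Integrable.bdd_mul (c := C) hu
    (hk.measurable.comp (measurable_id.prodMk (h.measY i))).aestronglyMeasurable
    (Eventually.of_forall fun z => hC _)

theorem bmul1 (h : MG N m A ρ Y P) {k : ℂ × ℂ → ℂ} (hk : Continuous k ∧ ∃ C, ∀ p, ‖k p‖ ≤ C)
    (i : Fin N) : IntegrableOn (fun z => k (z, Y z i)) (ball 0 1) := by
  have h1 : IntegrableOn (fun _ : ℂ => (1 : ℂ)) (ball (0 : ℂ) 1) :=
    integrableOn_const measure_ball_lt_top.ne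
  have := bmul h hk i h1
  simpa only [mul_one] using this

theorem int_s1 (hm : ContinuousOn m (PD 2)) (hA : ContinuousOn A (PD 2)) (hρ : ρ < 1)
    (h : MG N m A ρ Y P) {f : ℂ × ℂ → ℂ} (hf : ContDiff ℝ ∞ f) (hc : HasCompactSupport f) :
    IntegrableOn (fun z => ∑ i, (dC f (z, Y z i) (1, 0) + dC f (z, Y z i) (0, 1) * P z i
      + dbC f (z, Y z i) (0, 1) * (starRingEnd ℂ) (QQ m A Y P z i))) (ball 0 1) := by
  refine int_sum fun i => ?_
  have iQc : IntegrableOn (fun z => (starRingEnd ℂ) (QQ m A Y P z i)) (ball 0 1) :=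
    (Complex.conjCLE : ℂ →L[ℝ] ℂ).integrable_comp (int_Q hm hA hρ h i)
  exact int_add (int_add (bmul1 h (bdd_dC hf hc _) i) (bmul h (bdd_dC hf hc _) i (int_P h i)))
    (bmul h (bdd_dbC hf hc _) i iQc)

theorem int_s2 (hm : ContinuousOn m (PD 2)) (hA : ContinuousOn A (PD 2)) (hρ : ρ < 1)
    (h : MG N m A ρ Y P) {f : ℂ × ℂ → ℂ} (hf : ContDiff ℝ ∞ f) (hc : HasCompactSupport f) :
    IntegrableOn (fun z => ∑ i, (dbC f (z, Y z i) (1, 0)
      + dC f (z, Y z i) (0, 1) * QQ m A Y P z i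
      + dbC f (z, Y z i) (0, 1) * (starRingEnd ℂ) (P z i))) (ball 0 1) := by
  refine int_sum fun i => ?_
  have iPc : IntegrableOn (fun z => (starRingEnd ℂ) (P z i)) (ball 0 1) :=
    (Complex.conjCLE : ℂ →L[ℝ] ℂ).integrable_comp (int_P h i)
  exact int_add (int_add (bmul1 h (bdd_dbC hf hc _) i)
    (bmul h (bdd_dC hf hc _) i (int_Q hm hA hρ h i))) (bmul h (bdd_dbC hf hc _) i iPc)

theorem comb (hρ : ρ < 1) (h : MG N m A ρ Y P) (hφ : ContDiff ℝ ∞ φ) (hF : ContDiff ℝ ∞ F)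
    (v z : ℂ) : v * (∑ i, (dC (tf φ F) (z, Y z i) (1, 0) + dC (tf φ F) (z, Y z i) (0, 1) * P z i
      + dbC (tf φ F) (z, Y z i) (0, 1) * (starRingEnd ℂ) (QQ m A Y P z i)))
      + (starRingEnd ℂ) v * (∑ i, (dbC (tf φ F) (z, Y z i) (1, 0)
      + dC (tf φ F) (z, Y z i) (0, 1) * QQ m A Y P z i
      + dbC (tf φ F) (z, Y z i) (0, 1) * (starRingEnd ℂ) (P z i)))
      = fderiv ℝ φ z v • ∑ i, F (Y z i)
        + φ z • (∑ i, (fderiv ℝ F (Y z i)).comp (dPQ (P z i) (QQ m A Y P z i))) v := by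
  have hb : ∀ z i, ‖Y z i‖ < 1 := fun z i => (h.bdd z i).trans_lt hρ
  have hsa : (∑ i, (fderiv ℝ F (Y z i)).comp (dPQ (P z i) (QQ m A Y P z i))) v
      = ∑ i, fderiv ℝ F (Y z i) (dPQ (P z i) (QQ m A Y P z i) v) := by
    simp [ContinuousLinearMap.sum_apply]
  rw [hsa, Finset.mul_sum, Finset.mul_sum, Finset.smul_sum, Finset.smul_sum,
    ← Finset.sum_add_distrib, ← Finset.sum_add_distrib]
  refine Finset.sum_congr rfl fun i _ => ?_
  have e1 : cutF F (Y z i) = F (Y z i) := (cutF_eq (hb z i)).self_of_nhds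
  have e2 : fderiv ℝ (cutF F) (Y z i) = fderiv ℝ F (Y z i) := (cutF_eq (hb z i)).fderiv_eq
  rw [tf_d1 hφ hF, tf_d2 hφ hF, tf_d3 hφ hF, tf_d4 hφ hF, e1, e2,
    pz_pzb (fderiv ℝ F (Y z i)) (dPQ _ _ v), dPQ_apply]
  rw [Complex.real_smul, real_split z v, Complex.real_smul]
  simp only [smul_eq_mul, map_add, map_mul, Complex.conj_conj]
  ring

end test

/-- the chain rule of a multigraph as a weak derivative -/
theorem wgc (hm : ContinuousOn m (PD 2)) (hA : ContinuousOn A (PD 2)) (hρ : ρ < 1)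
    (h : MG N m A ρ Y P) {F : ℂ → ℂ} (hF : ContDiff ℝ ∞ F) :
    WG (ball 0 1) (fun z => ∑ i, F (Y z i))
      (fun z => ∑ i, (fderiv ℝ F (Y z i)).comp (dPQ (P z i) (QQ m A Y P z i))) := by
  have iF : IntegrableOn (fun z => ∑ i, F (Y z i)) (ball 0 1) :=
    int_sum fun i => int_F hρ h hF.continuous i
  have iFD : IntegrableOn (fun z => ∑ i, (fderiv ℝ F (Y z i)).comp
      (dPQ (P z i) (QQ m A Y P z i))) (ball 0 1) := int_sum fun i => int_FD hm hA hρ h hF i
  refine ⟨fun K hK hKU => iF.mono_set hKU, fun K hK hKU => iFD.mono_set hKU, ?_⟩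
  intro φ hφ hφc hφs v
  have hfs := tf_smooth hφ hF
  have hfc : HasCompactSupport (tf φ F) := tf_compact hφc
  have hfb : tsupport (tf φ F) ⊆ ball (0 : ℂ) 1 ×ˢ univ :=
    fun p hp => ⟨hφs (tf_tsupport hp).1, trivial⟩
  have c1 := h.chain _ hfs hfc hfb
  have c2 := h.chainb _ hfs hfc hfb
  have s1 := int_s1 hm hA hρ h hfs hfc
  have s2 := int_s2 hm hA hρ h hfs hfc
  have a1 : IntegrableOn (fun z => fderiv ℝ φ z v • ∑ i, F (Y z i)) (ball 0 1) := by
    obtain ⟨t1, t2, t3⟩ := test_fderiv hφ hφc v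
    obtain ⟨C, hC⟩ := t1.bounded_above_of_compact_support t2
    exact Integrable.bdd_smul iF C t1.aestronglyMeasurable (Eventually.of_forall hC)
  have a2 : IntegrableOn (fun z => φ z •
      (∑ i, (fderiv ℝ F (Y z i)).comp (dPQ (P z i) (QQ m A Y P z i))) v) (ball 0 1) := by
    obtain ⟨C, hC⟩ := hφ.continuous.bounded_above_of_compact_support hφc
    exact Integrable.bdd_smul (int_apply iFD v) C hφ.continuous.aestronglyMeasurable
      (Eventually.of_forall hC)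
  have total : ∫ z in ball (0 : ℂ) 1, (fderiv ℝ φ z v • ∑ i, F (Y z i)
        + φ z • (∑ i, (fderiv ℝ F (Y z i)).comp (dPQ (P z i) (QQ m A Y P z i))) v) = 0 := by
    have e1 := integral_congr_ae (μ := volume.restrict (ball (0 : ℂ) 1))
      (Eventually.of_forall (comb hρ h hφ hF v))
    rw [← e1, integral_add (s1.const_mul v) (s2.const_mul _), integral_const_mul,
      integral_const_mul]
    have c1' : ∫ z in ball (0 : ℂ) 1, ∑ i, (dC (tf φ F) (z, Y z i) (1, 0)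
      + dC (tf φ F) (z, Y z i) (0, 1) * P z i
      + dbC (tf φ F) (z, Y z i) (0, 1) * (starRingEnd ℂ) (QQ m A Y P z i)) = 0 := c1
    have c2' : ∫ z in ball (0 : ℂ) 1, ∑ i, (dbC (tf φ F) (z, Y z i) (1, 0)
      + dC (tf φ F) (z, Y z i) (0, 1) * QQ m A Y P z i
      + dbC (tf φ F) (z, Y z i) (0, 1) * (starRingEnd ℂ) (P z i)) = 0 := c2
    rw [c1', c2']
    simp
  rw [integral_add a1 a2] at total
  have o1 : ∫ z, fderiv ℝ φ z v • ∑ i, F (Y z i)
      = ∫ z in ball (0 : ℂ) 1, fderiv ℝ φ z v • ∑ i, F (Y z i) := by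
    rw [setIntegral_eq_integral_of_forall_compl_eq_zero]
    intro z hz
    have : fderiv ℝ φ z v = 0 := by
      by_contra h1
      exact hz (hφs ((test_fderiv hφ hφc v).2.2 (subset_tsupport _ h1)))
    rw [this, zero_smul]
  have o2 : ∫ z, φ z • (∑ i, (fderiv ℝ F (Y z i)).comp (dPQ (P z i) (QQ m A Y P z i))) v
      = ∫ z in ball (0 : ℂ) 1, φ z •
        (∑ i, (fderiv ℝ F (Y z i)).comp (dPQ (P z i) (QQ m A Y P z i))) v := by
    rw [setIntegral_eq_integral_of_forall_compl_eq_zero]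
    intro z hz
    have : φ z = 0 := by
      by_contra h1
      exact hz (hφs (subset_tsupport _ h1))
    rw [this, zero_smul]
  rw [o1, o2]
  exact eq_neg_of_add_eq_zero_left total

end Vale.Agent.P247.H462
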