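import Vale.Agent.P247.H462.Rep
import Vale.Agent.P247.H462.Chain

/-!
# P247 (helper462), package PUI-A: from the multigraph to a continuous representative
-/

open MeasureTheory Set Metric Filter Topology
open scoped ContDiff ENNReal

noncomputable section

namespace Vale.Agent.P247.H462

open Vale.Agent.P272.CT
open Vale.Agent.P247.H324
open Vale.Agent.P247.H574 (PD MG dC dbC)

variable {N : ℕ} {m A : ℂ × ℂ → ℂ} {ρ : ℝ} {Y P : ℂ → Fin N → ℂ}

/-- equal power sums imply equal sums of every function -/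
theorem sum_eq_of_psum {w v : Fin N → ℂ} (h : ∀ k : ℕ, ∑ i, w i ^ k = ∑ i, v i ^ k)
    (F : ℂ → ℂ) : ∑ i, F (w i) = ∑ i, F (v i) := by
  classical
  set s : Finset ℂ := Finset.univ.image w ∪ Finset.univ.image v with hs
  set Q := Lagrange.interpolate s id F with hQ
  have hev : ∀ x ∈ s, Q.eval x = F x := fun x hx =>
    Lagrange.eval_interpolate_at_node F Function.injective_id.injOn hx
  have hsum : ∀ u : Fin N → ℂ, ∑ i, Q.eval (u i) = ∑ k ∈ Finset.range (Q.natDegree + 1),
      Q.coeff k * ∑ i, u i ^ k := by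
    intro u
    simp only [Polynomial.eval_eq_sum_range, Finset.mul_sum]
    rw [Finset.sum_comm]
  have hw : ∑ i, F (w i) = ∑ i, Q.eval (w i) :=
    Finset.sum_congr rfl fun i _ => (hev _ (Finset.mem_union_left _
      (Finset.mem_image_of_mem w (Finset.mem_univ i)))).symm
  have hv : ∑ i, F (v i) = ∑ i, Q.eval (v i) :=
    Finset.sum_congr rfl fun i _ => (hev _ (Finset.mem_union_right _
      (Finset.mem_image_of_mem v (Finset.mem_univ i)))).symm
  rw [hw, hv, hsum, hsum]
  exact Finset.sum_congr rfl fun k _ => by rw [h k]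

/-- Continuous choice of the roots: if the power sums of `Y` agree a.e. with continuous functions,
then `Y` can be changed on a null set so that all symmetric sums become continuous. -/
theorem exists_cont_rep {R : ℝ} (hY : ∀ z i, ‖Y z i‖ ≤ ρ) {g : ℕ → ℂ → ℂ}
    (hg : ∀ k, ContinuousOn (g k) (ball 0 R))
    (hgY : ∀ k, g k =ᵐ[volume.restrict (ball (0 : ℂ) R)] fun z => ∑ i, Y z i ^ k) :
    ∃ (S : Set ℂ) (Y' : ℂ → Fin N → ℂ), (∀ᵐ z ∂volume.restrict (ball (0 : ℂ) R), z ∈ S) ∧
      (∀ z ∈ S, Y' z = Y z) ∧ (∀ z i, ‖Y' z i‖ ≤ ρ) ∧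
      ∀ F : ℂ → ℂ, Continuous F → ContinuousOn (fun z => ∑ i, F (Y' z i)) (ball 0 R) := by
  classical
  set S : Set ℂ := {z | ∀ k, g k z = ∑ i, Y z i ^ k} with hS
  have hae : ∀ᵐ z ∂volume.restrict (ball (0 : ℂ) R), z ∈ S := ae_all_iff.2 hgY
  -- compactness
  have hK : IsCompact (Set.pi univ fun _ : Fin N => closedBall (0 : ℂ) ρ) :=
    isCompact_univ_pi fun _ => isCompact_closedBall _ _
  have hYK : ∀ z, Y z ∈ Set.pi univ fun _ : Fin N => closedBall (0 : ℂ) ρ := fun z i _ => by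
    rw [mem_closedBall_zero_iff]; exact hY z i
  -- density
  have hdense : ∀ z ∈ ball (0 : ℂ) R, ∀ ε > 0, ∃ z' ∈ ball (0 : ℂ) R, dist z' z < ε ∧ z' ∈ S := by
    intro z hz ε hε
    by_contra hcon
    push Not at hcon
    have h1 : volume (ball z ε ∩ ball (0 : ℂ) R) = 0 := by
      have h2 : volume.restrict (ball (0 : ℂ) R) (ball z ε) = 0 := by
        refine measure_mono_null ?_ (ae_iff.1 (hae.and (ae_restrict_mem measurableSet_ball)))
        intro w hw hc
        exact hcon w hc.2 (mem_ball.1 hw) hc.1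
      rwa [Measure.restrict_apply measurableSet_ball] at h2
    exact ((isOpen_ball.inter isOpen_ball).measure_pos volume
      ⟨z, mem_ball_self hε, hz⟩).ne' h1
  -- roots at all points
  have hroots : ∀ z, ∃ w : Fin N → ℂ, (z ∈ ball (0 : ℂ) R → ∀ k, ∑ i, w i ^ k = g k z) ∧
      (∀ i, ‖w i‖ ≤ ρ) ∧ (z ∈ S → w = Y z) := by
    intro z
    by_cases hzS : z ∈ S
    · exact ⟨Y z, fun _ k => (hzS k).symm, hY z, fun _ => rfl⟩
    by_cases hzb : z ∈ ball (0 : ℂ) R
    · have h1 : ∀ n : ℕ, ∃ z' ∈ ball (0 : ℂ) R, dist z' z < 1 / (n + 1) ∧ z' ∈ S :=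
        fun n => hdense z hzb _ (by positivity)
      choose x hx1 hx2 hx3 using h1
      obtain ⟨w, hw, φ, hφ, hlim⟩ := hK.tendsto_subseq fun n => hYK (x n)
      have hx : Tendsto x atTop (𝓝 z) := by
        rw [tendsto_iff_dist_tendsto_zero]
        exact squeeze_zero (fun _ => dist_nonneg) (fun n => (hx2 n).le)
          tendsto_one_div_add_atTop_nhds_zero_nat
      refine ⟨w, fun _ k => ?_, fun i => ?_, fun h => absurd h hzS⟩
      · have h2 : Tendsto (fun n => ∑ i, Y (x (φ n)) i ^ k) atTop (𝓝 (∑ i, w i ^ k)) :=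
          tendsto_finset_sum _ fun i _ => ((tendsto_pi_nhds.1 hlim i).pow k)
        have h3 : Tendsto (fun n => g k (x (φ n))) atTop (𝓝 (g k z)) :=
          ((hg k).continuousAt (isOpen_ball.mem_nhds hzb)).tendsto.comp
            (hx.comp hφ.tendsto_atTop)
        have h4 : (fun n => g k (x (φ n))) = fun n => ∑ i, Y (x (φ n)) i ^ k :=
          funext fun n => hx3 (φ n) k
        rw [h4] at h3
        exact tendsto_nhds_unique h2 h3
      · have := hw i trivial
        rwa [mem_closedBall_zero_iff] at this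
    · exact ⟨Y z, fun h => absurd h hzb, hY z, fun _ => rfl⟩
  choose Y' h1 h2 h3 using hroots
  refine ⟨S, Y', hae, h3, h2, fun F hF => ?_⟩
  intro z0 hz0
  refine ContinuousAt.continuousWithinAt ?_
  refine tendsto_of_subseq_tendsto fun ns hns => ?_
  have hYK' : ∀ z, Y' z ∈ Set.pi univ fun _ : Fin N => closedBall (0 : ℂ) ρ := fun z i _ => by
    rw [mem_closedBall_zero_iff]; exact h2 z i
  obtain ⟨w, hw, φ, hφ, hlim⟩ := hK.tendsto_subseq fun n => hYK' (ns n)
  refine ⟨φ, ?_⟩
  have hl : Tendsto (fun n => ns (φ n)) atTop (𝓝 z0) := hns.comp hφ.tendsto_atTop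
  have h4 : ∀ k : ℕ, ∑ i, w i ^ k = ∑ i, Y' z0 i ^ k := by
    intro k
    have e1 : Tendsto (fun n => ∑ i, Y' (ns (φ n)) i ^ k) atTop (𝓝 (∑ i, w i ^ k)) :=
      tendsto_finset_sum _ fun i _ => ((tendsto_pi_nhds.1 hlim i).pow k)
    have e2 : Tendsto (fun n => g k (ns (φ n))) atTop (𝓝 (g k z0)) :=
      ((hg k).continuousAt (isOpen_ball.mem_nhds hz0)).tendsto.comp hl
    have e3 : ∀ᶠ n in atTop, g k (ns (φ n)) = ∑ i, Y' (ns (φ n)) i ^ k := by
      filter_upwards [hl.eventually (isOpen_ball.mem_nhds hz0)] with n hn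
      exact (h1 _ hn k).symm
    rw [h1 z0 hz0 k]
    exact tendsto_nhds_unique e1 (e2.congr' e3)
  have h5 : ∑ i, F (Y' z0 i) = ∑ i, F (w i) := (sum_eq_of_psum h4 F).symm
  show Tendsto _ _ (𝓝 (∑ i, F (Y' z0 i)))
  rw [h5]
  exact tendsto_finset_sum _ fun i _ => (hF.tendsto _).comp (tendsto_pi_nhds.1 hlim i)

theorem norm_dPQ_le (p q : ℂ) : ‖dPQ p q‖ ≤ ‖p‖ + ‖q‖ := by
  refine ContinuousLinearMap.opNorm_le_bound _ (by positivity) fun v => ?_
  rw [dPQ_apply]
  calc ‖p * v + q * (starRingEnd ℂ) v‖ ≤ ‖p * v‖ + ‖q * (starRingEnd ℂ) v‖ := norm_add_le _ _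
    _ = (‖p‖ + ‖q‖) * ‖v‖ := by
        rw [norm_mul, norm_mul, RCLike.norm_conj]; ring

theorem pz_dPQ (p q : ℂ) : pz (dPQ p q) = p ∧ pzb (dPQ p q) = q :=
  pz_eq_of fun v => by rw [dPQ_apply]; simp only [smul_eq_mul]; ring

/-- normalized energy decay -/
theorem decay_norm {C γ r : ℝ} (hγ : 0 < γ) (hr : 0 < r) (hr1 : r ≤ 1)
    (h : ∀ x t, 0 < t → ∫⁻ z in ball x t ∩ ball 0 r, ∑ i, ‖P z i‖ₑ ^ 2
      ≤ ENNReal.ofReal (C * t ^ (2 * γ))) :
    ∀ x t, 0 < t → ∫⁻ z in ball x t ∩ ball 0 r, ∑ i, ‖P z i‖ₑ ^ 2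
      ≤ ENNReal.ofReal (max C 0 * t ^ (2 * min γ 1)) := by
  intro x t ht
  have hm0 : 0 < min γ 1 := lt_min hγ one_pos
  by_cases h1 : t ≤ 1
  · refine (h x t ht).trans (ENNReal.ofReal_le_ofReal ?_)
    have e1 : t ^ (2 * γ) ≤ t ^ (2 * min γ 1) :=
      Real.rpow_le_rpow_of_exponent_ge ht h1 (by linarith [min_le_left γ 1])
    calc C * t ^ (2 * γ) ≤ max C 0 * t ^ (2 * γ) := by
          gcongr; exact le_max_left _ _
      _ ≤ _ := by gcongr
  · push Not at h1
    have e0 : ball x t ∩ ball (0 : ℂ) r ⊆ ball 0 1 ∩ ball 0 r := fun z hz =>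
      ⟨ball_subset_ball hr1 hz.2, hz.2⟩
    refine (lintegral_mono_set e0).trans ((h 0 1 one_pos).trans (ENNReal.ofReal_le_ofReal ?_))
    rw [Real.one_rpow, mul_one]
    have e1 : (1 : ℝ) ≤ t ^ (2 * min γ 1) := Real.one_le_rpow h1.le (by linarith)
    calc C ≤ max C 0 * 1 := by rw [mul_one]; exact le_max_left _ _
      _ ≤ _ := by gcongr

theorem vol_ball_inter {x : ℂ} {t r s : ℝ} (ht : 0 < t) (hr : 0 < r) (hr1 : r ≤ 1)
    (hs0 : 0 ≤ s) (hs : s ≤ 2) :
    volume (ball x t ∩ ball (0 : ℂ) r) ≤ ENNReal.ofReal (Real.pi * t ^ s) := by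
  have hball : ∀ (y : ℂ) {a : ℝ}, 0 < a → volume (ball y a) = ENNReal.ofReal (Real.pi * a ^ 2) := by
    intro y a ha
    rw [Complex.volume_ball, ENNReal.ofReal_mul Real.pi_pos.le, ENNReal.ofReal_pow ha.le, mul_comm]
    congr 1
    rw [← NNReal.coe_real_pi, ENNReal.ofReal_coe_nnreal]
  by_cases h1 : t ≤ 1
  · refine (measure_mono inter_subset_left).trans ?_
    rw [hball x ht]
    refine ENNReal.ofReal_le_ofReal ?_
    have : t ^ (2 : ℕ) ≤ t ^ s := by
      rw [← Real.rpow_natCast]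
      exact Real.rpow_le_rpow_of_exponent_ge ht h1 (by push_cast; exact hs)
    have := Real.pi_pos
    gcongr
  · push Not at h1
    refine (measure_mono inter_subset_right).trans ?_
    rw [hball 0 hr]
    refine ENNReal.ofReal_le_ofReal ?_
    have e1 : (1 : ℝ) ≤ t ^ s := Real.one_le_rpow h1.le hs0
    have e2 : r ^ 2 ≤ 1 := pow_le_one₀ hr.le hr1
    have := Real.pi_pos
    gcongr
    exact e2.trans e1

/-- The `L¹` and `L²` Morrey bounds of the gradient. -/
theorem mor_bounds {B C γ r : ℝ} (hB : 0 ≤ B) (hC : 0 ≤ C) (hγ : 0 < γ) (hγ1 : γ ≤ 1)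
    (hr : 0 < r) (hr1 : r ≤ 1) (mP : ∀ i, Measurable fun z => P z i)
    (h : ∀ x t, 0 < t → ∫⁻ z in ball x t ∩ ball 0 r, ∑ i, ‖P z i‖ₑ ^ 2
      ≤ ENNReal.ofReal (C * t ^ (2 * γ))) :
    (∀ x t, 0 < t → ∫⁻ z in ball x t ∩ ball 0 r, ENNReal.ofReal (B * (1 + ∑ i, ‖P z i‖))
      ≤ ENNReal.ofReal (B * (Real.pi + N * Real.pi + C) * t ^ (1 + γ))) ∧
    ∀ x t, 0 < t → ∫⁻ z in ball x t ∩ ball 0 r, ENNReal.ofReal (B * (1 + ∑ i, ‖P z i‖)) ^ 2
      ≤ ENNReal.ofReal (B ^ 2 * (N + 1) * (Real.pi + C) * t ^ (2 * γ)) := by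
  have hsum : ∀ z, ∑ i, ‖P z i‖ₑ ^ 2 = ENNReal.ofReal (∑ i, ‖P z i‖ ^ 2) := by
    intro z
    rw [ENNReal.ofReal_sum_of_nonneg fun i _ => by positivity]
    refine Finset.sum_congr rfl fun i _ => ?_
    rw [ENNReal.ofReal_pow (norm_nonneg _), ofReal_norm]
  have hpi := Real.pi_pos
  have mS : Measurable fun z => ENNReal.ofReal (∑ i, ‖P z i‖ ^ 2) := by
    refine ENNReal.measurable_ofReal.comp ?_
    exact Finset.measurable_sum _ fun i _ => (mP i).norm.pow_const 2
  constructor
  · intro x t ht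
    set s : ℝ := t ^ (1 - γ) with hs
    have hs0 : 0 < s := Real.rpow_pos_of_pos ht _
    have hsi : s⁻¹ = t ^ (γ - 1) := by
      rw [hs, ← Real.rpow_neg ht.le]; congr 1; ring
    have hpt : ∀ z, ENNReal.ofReal (B * (1 + ∑ i, ‖P z i‖)) ≤
        ENNReal.ofReal (B * (1 + N * s⁻¹)) + ENNReal.ofReal (B * s) *
          ENNReal.ofReal (∑ i, ‖P z i‖ ^ 2) := by
      intro z
      rw [← ENNReal.ofReal_mul (by positivity), ← ENNReal.ofReal_add (by positivity)
        (by positivity)]
      refine ENNReal.ofReal_le_ofReal ?_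
      have h1 : ∑ i, ‖P z i‖ ≤ ∑ i, (s⁻¹ + s * ‖P z i‖ ^ 2) := by
        refine Finset.sum_le_sum fun i _ => ?_
        have e : s⁻¹ + s * ‖P z i‖ ^ 2 - 2 * ‖P z i‖ = s⁻¹ * (1 - s * ‖P z i‖) ^ 2 := by
          field_simp; ring
        have : 0 ≤ s⁻¹ * (1 - s * ‖P z i‖) ^ 2 := by positivity
        nlinarith [norm_nonneg (P z i)]
      rw [Finset.sum_add_distrib, ← Finset.mul_sum] at h1
      simp only [Finset.sum_const, Finset.card_univ, Fintype.card_fin, nsmul_eq_mul] at h1
      calc B * (1 + ∑ i, ‖P z i‖) ≤ B * (1 + (N * s⁻¹ + s * ∑ i, ‖P z i‖ ^ 2)) := by gcongr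
        _ = _ := by ring
    calc ∫⁻ z in ball x t ∩ ball 0 r, ENNReal.ofReal (B * (1 + ∑ i, ‖P z i‖))
        ≤ ∫⁻ z in ball x t ∩ ball 0 r, (ENNReal.ofReal (B * (1 + N * s⁻¹))
            + ENNReal.ofReal (B * s) * ENNReal.ofReal (∑ i, ‖P z i‖ ^ 2)) :=
          lintegral_mono fun z => hpt z
      _ = ENNReal.ofReal (B * (1 + N * s⁻¹)) * volume (ball x t ∩ ball (0 : ℂ) r)
          + ENNReal.ofReal (B * s) * ∫⁻ z in ball x t ∩ ball 0 r, ∑ i, ‖P z i‖ₑ ^ 2 := by
          rw [lintegral_add_left measurable_const, lintegral_const,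
            Measure.restrict_apply_univ, lintegral_const_mul _ mS]
          simp only [hsum]
      _ ≤ (ENNReal.ofReal (B * (Real.pi * t ^ (1 + γ))) +
            ENNReal.ofReal (B * N * Real.pi * t ^ (1 + γ)))
          + ENNReal.ofReal (B * s) * ENNReal.ofReal (C * t ^ (2 * γ)) := by
          gcongr
          · have e1 : B * (1 + N * s⁻¹) = B + B * N * s⁻¹ := by ring
            rw [e1, ENNReal.ofReal_add hB (by positivity), add_mul]
            refine add_le_add ?_ ?_
            · rw [ENNReal.ofReal_mul hB]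
              gcongr
              exact vol_ball_inter ht hr hr1 (by linarith) (by linarith)
            · calc ENNReal.ofReal (B * N * s⁻¹) * volume (ball x t ∩ ball (0 : ℂ) r)
                  ≤ ENNReal.ofReal (B * N * s⁻¹) * ENNReal.ofReal (Real.pi * t ^ (2 : ℝ)) := by
                    gcongr
                    exact vol_ball_inter ht hr hr1 (by norm_num) le_rfl
                _ = ENNReal.ofReal (B * N * Real.pi * t ^ (1 + γ)) := by
                    rw [← ENNReal.ofReal_mul (by positivity), hsi]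
                    congr 1
                    have : t ^ (1 + γ) = t ^ (γ - 1) * t ^ (2 : ℝ) := by
                      rw [← Real.rpow_add ht]; congr 1; ring
                    rw [this]; ring
          · exact h x t ht
      _ = _ := by
          rw [← ENNReal.ofReal_mul (by positivity), ← ENNReal.ofReal_add (by positivity)
            (by positivity), ← ENNReal.ofReal_add (by positivity) (by positivity)]
          congr 1
          have : s * t ^ (2 * γ) = t ^ (1 + γ) := by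
            rw [hs, ← Real.rpow_add ht]; congr 1; ring
          calc B * (Real.pi * t ^ (1 + γ)) + B * ↑N * Real.pi * t ^ (1 + γ)
                + B * s * (C * t ^ (2 * γ))
              = B * (Real.pi * t ^ (1 + γ)) + B * ↑N * Real.pi * t ^ (1 + γ)
                + B * C * (s * t ^ (2 * γ)) := by ring
            _ = _ := by rw [this]; ring
  · intro x t ht
    have hpt : ∀ z, ENNReal.ofReal (B * (1 + ∑ i, ‖P z i‖)) ^ 2 ≤
        ENNReal.ofReal (B ^ 2 * (N + 1)) + ENNReal.ofReal (B ^ 2 * (N + 1)) *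
          ENNReal.ofReal (∑ i, ‖P z i‖ ^ 2) := by
      intro z
      have hS0 : 0 ≤ ∑ i, ‖P z i‖ := Finset.sum_nonneg fun i _ => norm_nonneg _
      rw [← ENNReal.ofReal_pow (by positivity), ← ENNReal.ofReal_mul (by positivity),
        ← ENNReal.ofReal_add (by positivity) (by positivity)]
      refine ENNReal.ofReal_le_ofReal ?_
      have h1 : (∑ i, ‖P z i‖) ^ 2 ≤ N * ∑ i, ‖P z i‖ ^ 2 := by
        have := sq_sum_le_card_mul_sum_sq (s := (Finset.univ : Finset (Fin N)))
          (f := fun i => ‖P z i‖)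
        simpa using this
      set a := ∑ i, ‖P z i‖ with ha
      set b := ∑ i, ‖P z i‖ ^ 2 with hb
      have hb0 : 0 ≤ b := Finset.sum_nonneg fun i _ => by positivity
      rw [mul_pow]
      have h2 : (1 + a) ^ 2 ≤ (N + 1) + (N + 1) * b := by
        have hN : (0 : ℝ) ≤ N := Nat.cast_nonneg N
        by_cases hN0 : N = 0
        · subst hN0
          have ha0 : a = 0 := by simp [ha]
          have hb1 : b = 0 := by simp [hb]
          rw [ha0, hb1]; norm_num
        have hN1 : (1 : ℝ) ≤ N := by exact_mod_cast Nat.one_le_iff_ne_zero.2 hN0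
        -- `2 a ≤ N + a² / N ≤ N + b`
        have h3 : 2 * a ≤ N + b := by
          have h4 : 0 ≤ (a - N) ^ 2 := sq_nonneg _
          nlinarith
        nlinarith
      calc B ^ 2 * (1 + a) ^ 2 ≤ B ^ 2 * ((N + 1) + (N + 1) * b) := by gcongr
        _ = _ := by ring
    calc ∫⁻ z in ball x t ∩ ball 0 r, ENNReal.ofReal (B * (1 + ∑ i, ‖P z i‖)) ^ 2
        ≤ ∫⁻ z in ball x t ∩ ball 0 r, (ENNReal.ofReal (B ^ 2 * (N + 1))
            + ENNReal.ofReal (B ^ 2 * (N + 1)) * ENNReal.ofReal (∑ i, ‖P z i‖ ^ 2)) :=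
          lintegral_mono fun z => hpt z
      _ = ENNReal.ofReal (B ^ 2 * (N + 1)) * volume (ball x t ∩ ball (0 : ℂ) r)
          + ENNReal.ofReal (B ^ 2 * (N + 1)) *
            ∫⁻ z in ball x t ∩ ball 0 r, ∑ i, ‖P z i‖ₑ ^ 2 := by
          rw [lintegral_add_left measurable_const, lintegral_const,
            Measure.restrict_apply_univ, lintegral_const_mul _ mS]
          simp only [hsum]
      _ ≤ ENNReal.ofReal (B ^ 2 * (N + 1)) * ENNReal.ofReal (Real.pi * t ^ (2 * γ))
          + ENNReal.ofReal (B ^ 2 * (N + 1)) * ENNReal.ofReal (C * t ^ (2 * γ)) := by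
          gcongr
          · exact vol_ball_inter ht hr hr1 (by linarith) (by linarith)
          · exact h x t ht
      _ = _ := by
          rw [← ENNReal.ofReal_mul (by positivity), ← ENNReal.ofReal_mul (by positivity),
            ← ENNReal.ofReal_add (by positivity) (by positivity)]
          congr 1
          ring

/-- the `N`-sheeted multigraph has a continuous representative -/
theorem PA : PA_statement := by
  intro N m A ρ Y P hm hA hm1 hρ h hdec
  obtain ⟨C0, γ0, r, hγ0, hr, hr1, hdec0⟩ := hdec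
  set C := max C0 0 with hC
  set γ := min γ0 1 with hγdef
  have hC0 : 0 ≤ C := le_max_right _ _
  have hγ : 0 < γ := lt_min hγ0 one_pos
  have hγ1 : γ ≤ 1 := min_le_right _ _
  have hdec := decay_norm hγ0 hr hr1 hdec0
  have hmc := hm.continuousOn
  have hAc := hA.continuousOn
  have hb : ∀ z i, ‖Y z i‖ < 1 := fun z i => (h.bdd z i).trans_lt hρ
  obtain ⟨a, ha0, ha⟩ := bdd_coef hAc
  set B : ℝ := max 2 a with hB
  have hB0 : 0 ≤ B := le_trans (by norm_num) (le_max_left _ _)
  have hB2 : 2 ≤ B := le_max_left _ _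
  have hBa : a ≤ B := le_max_right _ _
  -- the bound for `dPQ`
  have hD : ∀ z ∈ ball (0 : ℂ) 1, ∀ y : ℂ, ‖y‖ < 1 → ∀ p : ℂ,
      ‖dPQ p (m (z, y) * p + A (z, y))‖ ≤ B * (1 + ‖p‖) := by
    intro z hz y hy p
    have e1 : ‖m (z, y) * p + A (z, y)‖ ≤ ‖p‖ + a := by
      refine (norm_add_le _ _).trans (add_le_add ?_ (ha z hz y hy))
      rw [norm_mul]
      exact mul_le_of_le_one_left (norm_nonneg _) (hm1 _ (mem_PD hz hy)).le
    refine (norm_dPQ_le _ _).trans ?_
    nlinarith [norm_nonneg p]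
  have hrb : ball (0 : ℂ) r ⊆ ball 0 1 := ball_subset_ball hr1
  -- the power sums
  have hpow : ∀ k : ℕ, ∃ g : ℂ → ℂ, ContinuousOn g (ball 0 (r / 2)) ∧
      g =ᵐ[volume.restrict (ball (0 : ℂ) (r / 2))] fun z => ∑ i, Y z i ^ k := by
    intro k
    set F : ℂ → ℂ := fun y => y ^ k with hFdef
    have hF : ContDiff ℝ ∞ F := contDiff_id.pow k
    have hw := wgc hmc hAc hρ h hF
    set f : ℂ → ℂ := (ball (0 : ℂ) 1).indicator fun z => ∑ i, F (Y z i) with hf
    have hfi : Integrable f := int_ind measurableSet_ball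
      (int_sum fun i => int_F hρ h hF.continuous i)
    set f' : ℂ → ℂ →L[ℝ] ℂ := fun z => ∑ i, (fderiv ℝ F (Y z i)).comp
      (dPQ (P z i) (QQ m A Y P z i)) with hf'
    have hw' : WG (ball 0 r) f f' := (hw.mono hrb).congr measurableSet_ball
      (fun z hz => by rw [hf, indicator_of_mem (hrb hz)]) (fun z _ => rfl)
    obtain ⟨B', hB'⟩ := bdd_ball (hF.continuous_fderiv (by simp) : Continuous (fderiv ℝ F))
    set B1 : ℝ := max B' 0 with hB1
    have hB10 : 0 ≤ B1 := le_max_right _ _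
    have hnorm : ∀ z ∈ ball (0 : ℂ) r, ‖f' z‖ ≤ (B1 * B * (N + 1)) * (1 + ∑ i, ‖P z i‖) := by
      intro z hz
      have hS0 : 0 ≤ ∑ i, ‖P z i‖ := Finset.sum_nonneg fun i _ => norm_nonneg _
      calc ‖f' z‖ ≤ ∑ i, ‖(fderiv ℝ F (Y z i)).comp (dPQ (P z i) (QQ m A Y P z i))‖ :=
            norm_sum_le _ _
        _ ≤ ∑ i : Fin N, B1 * (B * (1 + ‖P z i‖)) := by
            refine Finset.sum_le_sum fun i _ => ?_
            refine (ContinuousLinearMap.opNorm_comp_le _ _).trans ?_
            have e1 := (hB' _ (hb z i)).trans (le_max_left B' 0)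
            have e2 := hD z (hrb hz) _ (hb z i) (P z i)
            exact mul_le_mul e1 e2 (norm_nonneg _) hB10
        _ = B1 * B * (N + ∑ i, ‖P z i‖) := by
            simp only [mul_add, Finset.sum_add_distrib, Finset.sum_const, Finset.card_univ,
              Fintype.card_fin, nsmul_eq_mul, ← Finset.mul_sum]
            ring
        _ ≤ _ := by
            have hN : (0 : ℝ) ≤ N := Nat.cast_nonneg N
            have hBB : 0 ≤ B1 * B := by positivity
            calc B1 * B * (N + ∑ i, ‖P z i‖) ≤ B1 * B * ((N + 1) * (1 + ∑ i, ‖P z i‖)) := by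
                  refine mul_le_mul_of_nonneg_left ?_ hBB
                  nlinarith
              _ = _ := by ring
    have hmor : ∀ x t, 0 < t → ∫⁻ z in ball x t ∩ ball 0 r, ‖f' z‖ₑ
        ≤ ENNReal.ofReal ((B1 * B * (N + 1)) * (Real.pi + N * Real.pi + C) * t ^ (1 + γ)) := by
      intro x t ht
      refine le_trans ?_ ((mor_bounds (B := B1 * B * (N + 1)) (by positivity) hC0 hγ hγ1 hr hr1
        h.measP hdec).1 x t ht)
      refine setLIntegral_mono' (measurableSet_ball.inter measurableSet_ball) fun z hz => ?_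
      rw [← ofReal_norm]
      exact ENNReal.ofReal_le_ofReal (hnorm z hz.2)
    obtain ⟨g, hg1, hg2⟩ := morrey_rep hr hγ (by have := Real.pi_pos; positivity) hfi hw' hmor
    refine ⟨g, hg1, ?_⟩
    filter_upwards [hg2, ae_restrict_mem measurableSet_ball] with z hz1 hz2
    rw [hz1, hf, indicator_of_mem (ball_subset_ball (by linarith) hz2)]
  choose g hg1 hg2 using hpow
  obtain ⟨S, Y', hS, hYS, hYb, hcont⟩ := exists_cont_rep h.bdd hg1 hg2
  classical
  set P' : ℂ → Fin N → ℂ := fun z i => if z ∈ S then P z i else 0 with hP'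
  set D : ℂ → Fin N → ℂ →L[ℝ] ℂ := fun z i =>
    dPQ (P' z i) (m (z, Y' z i) * P' z i + A (z, Y' z i)) with hDdef
  set L : ℝ := max ρ 0 with hL
  have hL1 : L < 1 := max_lt hρ one_pos
  have hY'1 : ∀ z i, ‖Y' z i‖ < 1 := fun z i => (hYb z i).trans_lt hρ
  have hR : 0 < r / 2 := by positivity
  have hRr : ball (0 : ℂ) (r / 2) ⊆ ball 0 r := ball_subset_ball (by linarith)
  have hae : ∀ᵐ z ∂volume.restrict (ball (0 : ℂ) (r / 2)), Y' z = Y z := by
    filter_upwards [hS] with z hz using hYS z hz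
  have hmb := mor_bounds (B := B) hB0 hC0 hγ hγ1 hr hr1 h.measP hdec
  have hP'le : ∀ z i, ‖P' z i‖ ≤ ‖P z i‖ := by
    intro z i
    simp only [hP']
    split_ifs
    · exact le_rfl
    · rw [norm_zero]; exact norm_nonneg _
  refine ⟨r / 2, B ^ 2 * (N + 1) * (Real.pi + C), γ, L,
    fun z => ENNReal.ofReal (B * (1 + ∑ i, ‖P z i‖)), Y', D, by linarith, hL1,
    { Rpos := hR
      Rle := by linarith
      Kpos := by have := Real.pi_pos; positivity
      εpos := hγ
      Lpos := le_max_right _ _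
      chain := ?_
      cont := hcont
      gm := ?_
      gD := ?_
      mor := ?_
      bdd := fun z i => (hYb z i).trans (le_max_left _ _)
      eqn := ?_
      same := ?_ }, hae⟩
  · intro F hF
    have hw := (wgc hmc hAc hρ h hF).mono (hRr.trans hrb)
    refine hw.congr_ae measurableSet_ball ?_ ?_
    · filter_upwards [hS] with z hz
      rw [hYS z hz]
    · filter_upwards [hS] with z hz
      simp only [hDdef, hP', if_pos hz, hYS z hz]
      rfl
  · refine Measurable.aemeasurable (ENNReal.measurable_ofReal.comp ?_)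
    exact ((Finset.measurable_sum _ fun i _ => (h.measP i).norm).const_add 1).const_mul B
  · intro z hz i
    rw [← ofReal_norm]
    refine ENNReal.ofReal_le_ofReal ?_
    refine (hD z (hrb (hRr hz)) _ (hY'1 z i) (P' z i)).trans ?_
    have h1 : ‖P z i‖ ≤ ∑ i, ‖P z i‖ :=
      Finset.single_le_sum (f := fun i => ‖P z i‖) (fun _ _ => norm_nonneg _) (Finset.mem_univ i)
    have h2 := hP'le z i
    gcongr
    exact h2.trans h1
  · intro x t ht
    exact (lintegral_mono_set (inter_subset_inter_right _ hRr)).trans (hmb.2 x t ht)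
  · intro z _ i
    simp only [hDdef, (pz_dPQ _ _).1, (pz_dPQ _ _).2]
  · intro z _ i j hij
    simp only [hDdef]
    have h1 : P' z i = P' z j := by
      simp only [hP']
      split_ifs with hz
      · have e := hYS z hz
        rw [e] at hij
        exact h.same z i j hij
      · rfl
    rw [hij, h1]

end Vale.Agent.P247.H462
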