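import Vale.Agent.P247.H324.MG.Dy

/-!
# P247 (helper462), package PUI-A: continuous representatives from the Morrey bound

If `f ∈ L¹` has on `ball 0 r` the weak derivative `f'` and `∫_{B(x,t)} |f'| ≤ C t^{1+γ}`, then the
mollifications of `f` at the scales `2^{-n} d` converge uniformly.
-/

open MeasureTheory Set Metric Filter Topology
open scoped ContDiff ENNReal Convolution

noncomputable section

namespace Vale.Agent.P247.H462

open Vale.Agent.P272.CT
open Vale.Agent.P247.H324

theorem bp_le {δ : ℝ} (hδ : 0 < δ) (x : ℂ) : bp δ hδ x ≤ 4 / (Real.pi * δ ^ 2) := by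
  have h := (bmp δ hδ).normed_le_div_measure_closedBall_rIn (μ := volume) x
  have h2 : volume.real (closedBall (0 : ℂ) (bmp δ hδ).rIn) = Real.pi * (δ / 2) ^ 2 := by
    have h3 := vol_cb 0 (r := δ / 2) (by positivity)
    exact h3
  rw [h2] at h
  refine h.trans (le_of_eq ?_)
  field_simp
  ring

theorem bp_norm_le {δ : ℝ} (hδ : 0 < δ) (x : ℂ) : ‖bp δ hδ x‖ ≤ 4 / (Real.pi * δ ^ 2) := by
  rw [Real.norm_of_nonneg (bp_nonneg hδ x)]
  exact bp_le hδ x

theorem bp_cont {δ : ℝ} (hδ : 0 < δ) : Continuous (bp δ hδ) := (bp_contDiff hδ).continuous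

variable {E : Type*} [NormedAddCommGroup E] [NormedSpace ℝ E] [CompleteSpace E]

/-- mollifications commute -/
theorem rm_comm {δ δ' : ℝ} (hδ : 0 < δ) (hδ' : 0 < δ') {f : ℂ → E} (hf : Integrable f) (x : ℂ) :
    rm δ' hδ' (rm δ hδ f) x = rm δ hδ (rm δ' hδ' f) x := by
  have key : ∀ {a b : ℝ} (ha : 0 < a) (hb : 0 < b),
      rm a ha (rm b hb f) x = ∫ t, (∫ s, bp a ha (x - s) * bp b hb (s - t)) • f t := by
    intro a b ha hb
    have h1 : Integrable (fun p : ℂ × ℂ => (bp a ha (x - p.1) * bp b hb (p.1 - p.2)) • f p.2)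
        (volume.prod volume) := by
      have h2 : Integrable (fun s : ℂ => bp a ha (x - s)) := by
        have h3 : Integrable (bp a ha) :=
          (bp_cont ha).integrable_of_hasCompactSupport (bp_compact ha)
        exact h3.comp_sub_left x
      have h4 : Integrable (fun p : ℂ × ℂ => bp a ha (x - p.1) • f p.2) (volume.prod volume) :=
        h2.smul_prod hf
      have h5 : Continuous fun p : ℂ × ℂ => bp b hb (p.1 - p.2) :=
        (bp_cont hb).comp (continuous_fst.sub continuous_snd)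
      have h6 := h4.bdd_smul (4 / (Real.pi * b ^ 2)) h5.aestronglyMeasurable
        (Eventually.of_forall fun p => bp_norm_le hb _)
      refine h6.congr (Eventually.of_forall fun p => ?_)
      show bp b hb (p.1 - p.2) • bp a ha (x - p.1) • f p.2 = _
      rw [smul_smul, mul_comm]
    rw [rm_apply]
    calc ∫ s, bp a ha (x - s) • rm b hb f s
        = ∫ s, ∫ t, (bp a ha (x - s) * bp b hb (s - t)) • f t := by
          refine integral_congr_ae (Eventually.of_forall fun s => ?_)
          simp only [rm_apply]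
          rw [← integral_smul]
          refine integral_congr_ae (Eventually.of_forall fun t => ?_)
          simp only [smul_smul]
      _ = ∫ t, ∫ s, (bp a ha (x - s) * bp b hb (s - t)) • f t :=
          integral_integral_swap h1
      _ = _ := by
          refine integral_congr_ae (Eventually.of_forall fun t => ?_)
          simp only
          rw [integral_smul_const]
  rw [key hδ' hδ, key hδ hδ']
  refine integral_congr_ae (Eventually.of_forall fun t => ?_)
  simp only
  congr 1
  have h1 := integral_sub_left_eq_self (fun s => bp δ' hδ' (x - s) * bp δ hδ (s - t)) volume (x + t)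
  rw [← h1]
  refine integral_congr_ae (Eventually.of_forall fun s => ?_)
  simp only
  have e1 : x - (x + t - s) = s - t := by ring
  have e2 : x + t - s - t = x - s := by ring
  rw [e1, e2, mul_comm]

/-- bound for mollifications -/
theorem norm_rm_le {δ : ℝ} (hδ : 0 < δ) {g : ℂ → E} (hg : Integrable g) {x : ℂ} {B : ℝ}
    (hB0 : 0 ≤ B) (hB : ∫⁻ z in ball x δ, ‖g z‖ₑ ≤ ENNReal.ofReal B) :
    ‖rm δ hδ g x‖ ≤ 4 / (Real.pi * δ ^ 2) * B := by
  have h1 : ‖rm δ hδ g x‖ₑ ≤ ENNReal.ofReal (4 / (Real.pi * δ ^ 2) * B) := by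
    calc ‖rm δ hδ g x‖ₑ ≤ ∫⁻ t, ‖bp δ hδ (x - t)‖ₑ * ‖g t‖ₑ := enorm_rm_le hδ x
      _ ≤ ∫⁻ t, (ball x δ).indicator
            (fun t => ENNReal.ofReal (4 / (Real.pi * δ ^ 2)) * ‖g t‖ₑ) t := by
          refine lintegral_mono fun t => ?_
          by_cases ht : t ∈ ball x δ
          · rw [indicator_of_mem ht]
            gcongr
            rw [← ofReal_norm]
            exact ENNReal.ofReal_le_ofReal (bp_norm_le hδ _)
          · rw [indicator_of_notMem ht]
            have h2 : δ ≤ ‖x - t‖ := by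
              rw [mem_ball, not_lt, dist_comm, dist_eq_norm] at ht
              exact ht
            simp [bp_zero hδ h2]
      _ = ENNReal.ofReal (4 / (Real.pi * δ ^ 2)) * ∫⁻ t in ball x δ, ‖g t‖ₑ := by
          rw [lintegral_indicator measurableSet_ball, lintegral_const_mul' _ _ (by simp)]
      _ ≤ ENNReal.ofReal (4 / (Real.pi * δ ^ 2)) * ENNReal.ofReal B := by gcongr
      _ = _ := by rw [← ENNReal.ofReal_mul (by positivity)]
  rw [← ofReal_norm] at h1
  exact (ENNReal.ofReal_le_ofReal_iff (by positivity)).1 h1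

theorem sub_bound {δ M : ℝ} (hδ : 0 < δ) {u : ℂ → E} (hu : ContDiff ℝ ∞ u)
    {x : ℂ} (hM : ∀ y ∈ ball x δ, ‖fderiv ℝ u y‖ ≤ M) :
    ∀ y ∈ ball x δ, ‖u y - u x‖ ≤ M * δ := by
  intro y hy
  have h1 := (convex_ball x δ).norm_image_sub_le_of_norm_fderiv_le (𝕜 := ℝ) (f := u)
    (fun z _ => (hu.differentiable (by simp)) z) hM (mem_ball_self hδ) hy
  refine h1.trans ?_
  have hM0 : 0 ≤ M := (norm_nonneg _).trans (hM x (mem_ball_self hδ))
  gcongr
  rw [← dist_eq_norm]
  exact (mem_ball.1 hy).le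

/-- the continuous representative -/
theorem morrey_rep {f : ℂ → E} {f' : ℂ → ℂ →L[ℝ] E} {r C γ : ℝ} (hr : 0 < r) (hγ : 0 < γ)
    (hC : 0 ≤ C) (hf : Integrable f) (h : WG (ball 0 r) f f')
    (hmor : ∀ x t, 0 < t → ∫⁻ z in ball x t ∩ ball 0 r, ‖f' z‖ₑ ≤ ENNReal.ofReal (C * t ^ (1 + γ))) :
    ∃ g : ℂ → E, ContinuousOn g (ball 0 (r / 2)) ∧ g =ᵐ[volume.restrict (ball 0 (r / 2))] f := by
  set d : ℝ := r / 8 with hd
  have hd0 : 0 < d := by positivity
  set δ : ℕ → ℝ := fun n => d * (1 / 2) ^ n with hδdef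
  have hδ : ∀ n, 0 < δ n := fun n => by simp only [hδdef]; positivity
  have hδle : ∀ n, δ n ≤ d := fun n => by
    simp only [hδdef]
    exact mul_le_of_le_one_right hd0.le (pow_le_one₀ (by norm_num) (by norm_num))
  have hδs : ∀ n, δ (n + 1) = δ n / 2 := fun n => by simp only [hδdef, pow_succ]; ring
  set f1 : ℂ → ℂ →L[ℝ] E := (closedBall (0 : ℂ) (7 * d)).indicator f' with hf1
  have h7 : closedBall (0 : ℂ) (7 * d) ⊆ ball 0 r := closedBall_subset_ball (by rw [hd]; linarith)
  have hf1i : Integrable f1 :=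
    int_ind measurableSet_closedBall (h.int _ (isCompact_closedBall _ _) h7)
  -- the derivative of the mollification
  have hder : ∀ a (ha : 0 < a), a ≤ d → ∀ y ∈ ball (0 : ℂ) (6 * d),
      fderiv ℝ (rm a ha f) y = rm a ha f1 y := by
    intro a ha had y hy
    have h1 : closedBall y a ⊆ closedBall 0 (7 * d) := by
      intro z hz
      rw [mem_closedBall, dist_eq_norm] at hz
      rw [mem_closedBall, dist_zero_right]
      rw [mem_ball, dist_zero_right] at hy
      calc ‖z‖ = ‖(z - y) + y‖ := by rw [sub_add_cancel]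
        _ ≤ ‖z - y‖ + ‖y‖ := norm_add_le _ _
        _ ≤ 7 * d := by linarith
    exact h.rm_fderiv ha hf.locallyIntegrable hf1i.locallyIntegrable (h1.trans h7)
      (fun _ _ => rfl) (fun z hz => indicator_of_mem (h1 hz) _)
  -- its size
  have hsize : ∀ a (ha : 0 < a), a ≤ d → ∀ y ∈ ball (0 : ℂ) (6 * d),
      ‖fderiv ℝ (rm a ha f) y‖ ≤ 4 / (Real.pi * a ^ 2) * (C * a ^ (1 + γ)) := by
    intro a ha had y hy
    rw [hder a ha had y hy]
    refine norm_rm_le ha hf1i (by positivity) ?_
    refine le_trans ?_ (hmor y a ha)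
    have h1 : ball y a ⊆ ball 0 r := by
      intro z hz
      rw [mem_ball, dist_eq_norm] at hz
      rw [mem_ball, dist_zero_right] at hy ⊢
      calc ‖z‖ = ‖(z - y) + y‖ := by rw [sub_add_cancel]
        _ ≤ ‖z - y‖ + ‖y‖ := norm_add_le _ _
        _ < r := by rw [hd] at hy had; linarith
    rw [inter_eq_left.2 h1]
    refine lintegral_mono fun z => ?_
    show ‖f1 z‖ₑ ≤ ‖f' z‖ₑ
    by_cases hz : z ∈ closedBall (0 : ℂ) (7 * d)
    · rw [hf1, indicator_of_mem hz]
    · rw [hf1, indicator_of_notMem hz]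
      exact (enorm_zero (E := ℂ →L[ℝ] E)).le.trans bot_le
  have hsize2 : ∀ a (ha : 0 < a), a ≤ d → ∀ y ∈ ball (0 : ℂ) (6 * d),
      ‖fderiv ℝ (rm a ha f) y‖ ≤ 4 * C / Real.pi * a ^ (γ - 1) := by
    intro a ha had y hy
    refine (hsize a ha had y hy).trans (le_of_eq ?_)
    have e : a ^ (1 + γ) = a ^ (γ - 1) * a ^ 2 := by
      rw [← Real.rpow_natCast, ← Real.rpow_add ha]
      congr 1
      push_cast
      ring
    rw [e]
    field_simp
  set q : ℝ := (1 / 2) ^ γ with hq
  have hq0 : 0 < q := by positivity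
  have hq1 : q < 1 := Real.rpow_lt_one (by norm_num) (by norm_num) hγ
  have hpow : ∀ n, δ n ^ γ = d ^ γ * q ^ n := by
    intro n
    simp only [hδdef]
    rw [Real.mul_rpow hd0.le (by positivity), hq, ← Real.rpow_natCast (1 / 2 : ℝ) n,
      ← Real.rpow_mul (by norm_num), mul_comm (n : ℝ) γ, Real.rpow_mul (by norm_num),
      Real.rpow_natCast]
  set K : ℝ := 4 * C / Real.pi * (1 + 2 ^ (1 - γ)) * d ^ γ with hK
  have hK0 : 0 ≤ K := by positivity
  set u : ℕ → ℂ → E := fun n => rm (δ n) (hδ n) f with hu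
  have hus : ∀ n, ContDiff ℝ ∞ (u n) := fun n => rm_contDiff (hδ n) hf.locallyIntegrable
  have hstep : ∀ n, ∀ x ∈ ball (0 : ℂ) (4 * d), ‖u (n + 1) x - u n x‖ ≤ K * q ^ n := by
    intro n x hx
    have hδ1 := hδle n
    have hδ2 := hδle (n + 1)
    have hsub : ∀ y ∈ ball x (δ n), y ∈ ball (0 : ℂ) (6 * d) := by
      intro y hy
      rw [mem_ball, dist_eq_norm] at hy
      rw [mem_ball, dist_zero_right] at hx ⊢
      calc ‖y‖ = ‖(y - x) + x‖ := by rw [sub_add_cancel]
        _ ≤ ‖y - x‖ + ‖x‖ := norm_add_le _ _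
        _ < 6 * d := by linarith
    -- (1) smoothing `u (n+1)` at scale `δ n`
    have a1 : dist (rm (δ n) (hδ n) (u (n + 1)) x) (u (n + 1) x)
        ≤ 4 * C / Real.pi * (δ (n + 1)) ^ (γ - 1) * δ n := by
      refine rm_dist (hδ n) (hus (n + 1)).continuous.aestronglyMeasurable fun y hy => ?_
      rw [dist_eq_norm]
      exact sub_bound (hδ n) (hus (n + 1))
        (fun z hz => hsize2 _ (hδ (n + 1)) hδ2 z (hsub z hz)) y hy
    -- (2) smoothing `u n` at scale `δ (n+1)`
    have a2 : dist (rm (δ (n + 1)) (hδ (n + 1)) (u n) x) (u n x)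
        ≤ 4 * C / Real.pi * (δ n) ^ (γ - 1) * δ n := by
      refine rm_dist (hδ (n + 1)) (hus n).continuous.aestronglyMeasurable fun y hy => ?_
      rw [dist_eq_norm]
      refine sub_bound (hδ n) (hus n)
        (fun z hz => hsize2 _ (hδ n) hδ1 z (hsub z hz)) y (ball_subset_ball ?_ hy)
      rw [hδs]
      linarith [hδ n]
    have a3 : rm (δ n) (hδ n) (u (n + 1)) x = rm (δ (n + 1)) (hδ (n + 1)) (u n) x :=
      rm_comm (hδ (n + 1)) (hδ n) hf x
    rw [a3] at a1
    rw [← dist_eq_norm]
    have a4 : dist (u (n + 1) x) (u n x) ≤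
        4 * C / Real.pi * (δ (n + 1)) ^ (γ - 1) * δ n + 4 * C / Real.pi * (δ n) ^ (γ - 1) * δ n :=
      (dist_triangle_left _ _ _).trans (add_le_add a1 a2)
    refine a4.trans (le_of_eq ?_)
    have e1 : (δ (n + 1)) ^ (γ - 1) = 2 ^ (1 - γ) * (δ n) ^ (γ - 1) := by
      rw [hδs, div_eq_mul_inv, Real.mul_rpow (hδ n).le (by norm_num), mul_comm]
      congr 1
      rw [Real.inv_rpow (by norm_num), ← Real.rpow_neg (by norm_num)]
      congr 1
      ring
    have e2 : (δ n) ^ (γ - 1) * δ n = d ^ γ * q ^ n := by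
      rw [← hpow n]
      nth_rewrite 2 [← Real.rpow_one (δ n)]
      rw [← Real.rpow_add (hδ n)]
      congr 1
      ring
    rw [e1, hK]
    calc 4 * C / Real.pi * (2 ^ (1 - γ) * δ n ^ (γ - 1)) * δ n
          + 4 * C / Real.pi * δ n ^ (γ - 1) * δ n
        = 4 * C / Real.pi * (1 + 2 ^ (1 - γ)) * (δ n ^ (γ - 1) * δ n) := by ring
      _ = _ := by rw [e2]; ring
  -- convergence
  have hr4 : r / 2 = 4 * d := by rw [hd]; ring
  rw [hr4]
  have hsum : Summable fun n : ℕ => K * q ^ n :=
    (summable_geometric_of_lt_one hq0.le hq1).mul_left K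
  set g : ℂ → E := fun x => u 0 x + ∑' n, (u (n + 1) x - u n x) with hg
  have htel : ∀ x n, u 0 x + ∑ k ∈ Finset.range n, (u (k + 1) x - u k x) = u n x := by
    intro x n
    rw [Finset.sum_range_sub (fun k => u k x)]
    abel
  have hcont : ContinuousOn g (ball 0 (4 * d)) := by
    refine (hus 0).continuous.continuousOn.add ?_
    exact continuousOn_tsum (fun n => ((hus (n + 1)).continuous.sub
      (hus n).continuous).continuousOn) hsum fun n x hx => hstep n x hx
  refine ⟨g, hcont, ?_⟩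
  -- the distance of `u n` and `g`
  have hclose : ∀ n, ∀ x ∈ ball (0 : ℂ) (4 * d), ‖g x - u n x‖ ≤ K * q ^ n / (1 - q) := by
    intro n x hx
    have s1 : Summable fun n => u (n + 1) x - u n x :=
      Summable.of_norm_bounded hsum fun n => hstep n x hx
    have e1 : g x - u n x = ∑' k, (u (k + n + 1) x - u (k + n) x) := by
      have h1 := s1.sum_add_tsum_nat_add n
      rw [← htel x n]
      simp only [hg]
      rw [← h1]
      abel
    rw [e1]
    have h2 : ∀ k, ‖u (k + n + 1) x - u (k + n) x‖ ≤ K * q ^ n * q ^ k := fun k => by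
      refine (hstep (k + n) x hx).trans (le_of_eq ?_)
      rw [pow_add]; ring
    have h3 : HasSum (fun k : ℕ => K * q ^ n * q ^ k) (K * q ^ n * (1 - q)⁻¹) :=
      (hasSum_geometric_of_lt_one hq0.le hq1).mul_left _
    have h4 := tsum_of_norm_bounded h3 h2
    rw [div_eq_mul_inv]
    exact h4
  -- `g = f` a.e.
  have hgm : AEStronglyMeasurable g (volume.restrict (ball 0 (4 * d))) :=
    hcont.aestronglyMeasurable measurableSet_ball
  have hzero : ∫⁻ x in ball (0 : ℂ) (4 * d), ‖g x - f x‖ₑ = 0 := by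
    refine le_antisymm (ENNReal.le_of_forall_pos_le_add fun ε hε _ => ?_) bot_le
    rw [zero_add]
    have hε2 : (0 : ℝ) < ε / 2 := by positivity
    obtain ⟨δ0, hδ0, hL⟩ := rm_L1 hf hε2
    set V : ℝ := (volume (ball (0 : ℂ) (4 * d))).toReal with hV
    have hVfin : volume (ball (0 : ℂ) (4 * d)) ≠ ⊤ := measure_ball_lt_top.ne
    have hV0 : 0 ≤ V := ENNReal.toReal_nonneg
    have t1 : Tendsto (fun n => K * q ^ n / (1 - q) * V) atTop (𝓝 0) := by
      have := ((tendsto_pow_atTop_nhds_zero_of_lt_one hq0.le hq1).const_mul K).div_const (1 - q)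
      simpa using this.mul_const V
    have t2 : Tendsto δ atTop (𝓝 0) := by
      have := (tendsto_pow_atTop_nhds_zero_of_lt_one (r := (1 / 2 : ℝ)) (by norm_num)
        (by norm_num)).const_mul d
      rw [mul_zero] at this
      exact this
    obtain ⟨n, hn1, hn2⟩ := ((t1.eventually (gt_mem_nhds hε2)).and
      (t2.eventually (gt_mem_nhds hδ0))).exists
    have m1 : AEMeasurable (fun x => ‖g x - u n x‖ₑ) (volume.restrict (ball 0 (4 * d))) :=
      (hgm.sub (hus n).continuous.aestronglyMeasurable).enorm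
    calc ∫⁻ x in ball (0 : ℂ) (4 * d), ‖g x - f x‖ₑ
        ≤ ∫⁻ x in ball (0 : ℂ) (4 * d), (‖g x - u n x‖ₑ + ‖u n x - f x‖ₑ) := by
          refine lintegral_mono fun x => ?_
          have e : g x - f x = (g x - u n x) + (u n x - f x) := by abel
          rw [e]
          exact enorm_add_le _ _
      _ = (∫⁻ x in ball (0 : ℂ) (4 * d), ‖g x - u n x‖ₑ)
          + ∫⁻ x in ball (0 : ℂ) (4 * d), ‖u n x - f x‖ₑ := lintegral_add_left' m1 _
      _ ≤ ENNReal.ofReal (ε / 2) + ENNReal.ofReal (ε / 2) := by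
          refine add_le_add ?_ ?_
          · calc ∫⁻ x in ball (0 : ℂ) (4 * d), ‖g x - u n x‖ₑ
                ≤ ∫⁻ _ in ball (0 : ℂ) (4 * d), ENNReal.ofReal (K * q ^ n / (1 - q)) := by
                  refine setLIntegral_mono' measurableSet_ball fun x hx => ?_
                  rw [← ofReal_norm]
                  exact ENNReal.ofReal_le_ofReal (hclose n x hx)
              _ = ENNReal.ofReal (K * q ^ n / (1 - q)) * ENNReal.ofReal V := by
                  rw [setLIntegral_const, hV, ENNReal.ofReal_toReal hVfin]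
              _ = ENNReal.ofReal (K * q ^ n / (1 - q) * V) := by
                  rw [ENNReal.ofReal_mul]
                  have : 0 < 1 - q := by linarith
                  positivity
              _ ≤ _ := ENNReal.ofReal_le_ofReal hn1.le
          · exact (setLIntegral_le_lintegral _ _).trans (hL _ (hδ n) hn2)
      _ = (ε : ℝ≥0∞) := by
          rw [← ENNReal.ofReal_add (by positivity) (by positivity), add_halves,
            ENNReal.ofReal_coe_nnreal]
  have m2 : AEMeasurable (fun x => ‖g x - f x‖ₑ) (volume.restrict (ball 0 (4 * d))) :=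
    (hgm.sub hf.aestronglyMeasurable.restrict).enorm
  have h5 := (lintegral_eq_zero_iff' m2).1 hzero
  filter_upwards [h5] with x hx
  have : ‖g x - f x‖ₑ = 0 := hx
  rw [enorm_eq_zero, sub_eq_zero] at this
  exact this

end Vale.Agent.P247.H462
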